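import Vale.Agent.P011Z.Defs

/-!
Exponentials and logarithms of nilpotent elements; the action of matrices on multilinear forms.
-/

open Matrix

namespace Vale.Agent.P011Z

section Ring

variable {A : Type*} [Ring A] [Algebra ℚ A]

theorem exp_eq_quad {a : A} (ha : IsNilpotent a) :
    ∃ w, (∀ z, Commute a z → Commute w z) ∧ IsNilpotent.exp a = 1 + a + a * a * w := by
  obtain ⟨k, hk⟩ := ha
  have h2 : a ^ (k + 2) = 0 := by rw [pow_add, hk, zero_mul]
  refine ⟨∑ i ∈ Finset.range k, ((i + 2).factorial : ℚ)⁻¹ • a ^ i, fun z hz => ?_, ?_⟩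
  · exact Commute.sum_left _ _ _ fun i _ => (hz.pow_left i).smul_left _
  · rw [IsNilpotent.exp_eq_sum h2, Finset.sum_range_succ', Finset.sum_range_succ', Finset.mul_sum]
    simp only [zero_add, Nat.factorial_one, Nat.cast_one, inv_one, pow_one, one_smul,
      Nat.factorial_zero, pow_zero, mul_smul_comm]
    rw [add_comm, add_comm _ a, add_assoc]
    refine congrArg _ (congrArg _ (Finset.sum_congr rfl fun i _ => ?_))
    rw [pow_succ', pow_succ', mul_assoc]

theorem exists_unit_exp {a : A} (ha : IsNilpotent a) :
    ∃ u, IsUnit u ∧ IsNilpotent.exp a = 1 + u * a := by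
  obtain ⟨w, h1, h2⟩ := exp_eq_quad ha
  have h3 : Commute w a := h1 a rfl
  refine ⟨1 + a * w, (h3.symm.isNilpotent_mul_right ha).isUnit_one_add, ?_⟩
  rw [h2, add_mul, one_mul, mul_assoc a w a, h3.eq, add_assoc, mul_assoc]

theorem eq_zero_of_exp_eq_one {a : A} (ha : IsNilpotent a) (h : IsNilpotent.exp a = 1) :
    a = 0 := by
  obtain ⟨u, h1, h2⟩ := exists_unit_exp ha
  rw [h, left_eq_add] at h2
  exact h1.mul_right_eq_zero.1 h2

theorem exp_nsmul {a : A} (ha : IsNilpotent a) (m : ℕ) :
    IsNilpotent.exp (m • a) = IsNilpotent.exp a ^ m := by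
  induction m with
  | zero => rw [zero_smul, IsNilpotent.exp_zero, pow_zero]
  | succ m ih =>
    rw [succ_nsmul, IsNilpotent.exp_add_of_commute ((Commute.refl a).smul_left m) (ha.smul m) ha,
      ih, pow_succ]

theorem exists_log_aux (k : ℕ) : ∀ u : A, u ^ (k + 1) = 0 → ∃ y, IsNilpotent y ∧
    IsNilpotent.exp y = 1 + u ∧ ∀ z, Commute u z → Commute y z := by
  induction k with
  | zero =>
    intro u hu
    rw [zero_add, pow_one] at hu
    exact ⟨0, IsNilpotent.zero, by rw [hu, add_zero, IsNilpotent.exp_zero],
      fun z _ => Commute.zero_left z⟩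
  | succ k ih =>
    intro u hu
    have hn : IsNilpotent u := ⟨_, hu⟩
    obtain ⟨w, h1, h2⟩ := exp_eq_quad hn.neg
    have h3 : ∀ z, Commute u z → Commute ((1 + u) * w - 1) z := fun z hz =>
      (((Commute.one_left z).add_left hz).mul_left (h1 z hz.neg_left)).sub_left (Commute.one_left z)
    have h4 : (1 + u) * IsNilpotent.exp (-u) = 1 + u * u * ((1 + u) * w - 1) := by
      rw [h2]
      noncomm_ring
    obtain ⟨y, h5, h6, h7⟩ := ih (u * u * ((1 + u) * w - 1)) (by
      have h8 : Commute (u * u) ((1 + u) * w - 1) := ((h3 u rfl).mul_right (h3 u rfl)).symm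
      rw [h8.mul_pow, ← pow_two, ← pow_mul, show 2 * (k + 1) = k + 1 + 1 + k by ring, pow_add, hu,
        zero_mul, zero_mul])
    have h9 : ∀ z, Commute u z → Commute y z := fun z hz =>
      h7 z ((hz.mul_left hz).mul_left (h3 z hz))
    refine ⟨y + u, (h9 u rfl).isNilpotent_add h5 hn, ?_, fun z hz => (h9 z hz).add_left hz⟩
    rw [IsNilpotent.exp_add_of_commute (h9 u rfl) h5 hn, h6, ← h4, mul_assoc,
      IsNilpotent.exp_neg_mul_exp_self hn, mul_one]

theorem exists_log_ring {g : A} (hn : IsNilpotent (g - 1)) :
    ∃ y, IsNilpotent y ∧ IsNilpotent.exp y = g ∧ ∀ z, Commute g z → Commute y z := by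
  obtain ⟨k, hk⟩ := hn
  obtain ⟨y, h1, h2, h3⟩ := exists_log_aux k (g - 1) (by rw [pow_succ, hk, zero_mul])
  exact ⟨y, h1, by rw [h2, add_sub_cancel], fun z hz => h3 z (hz.sub_left (Commute.one_left z))⟩

end Ring

section Slot

variable {n : Type} [Fintype n] [DecidableEq n] {F : Type} [Field F] {a : ℕ}

/-- The action of a matrix on one variable of a multilinear form. -/
def slot (r : Fin a) (X : Matrix n n F) :
    Module.End F (MultilinearMap F (fun _ : Fin a => n → F) F) where
  toFun t := t.compLinearMap (Function.update (fun _ => LinearMap.id) r X.mulVecLin)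
  map_add' _ _ := rfl
  map_smul' _ _ := rfl

omit [DecidableEq n] in
theorem slot_apply (r : Fin a) (X : Matrix n n F) (t : MultilinearMap F (fun _ : Fin a => n → F) F)
    (x : Fin a → n → F) : slot r X t x = t (Function.update x r (X *ᵥ x r)) := by
  refine congrArg t (funext fun q => ?_)
  by_cases h : q = r
  · subst h
    simp
  · simp [h]

omit [DecidableEq n] in
theorem slot_mul (r : Fin a) (X Y : Matrix n n F) : slot r (X * Y) = slot r Y * slot r X :=
  LinearMap.ext fun t => MultilinearMap.ext fun x => by simp [slot_apply]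

theorem slot_one (r : Fin a) : slot r (1 : Matrix n n F) = 1 :=
  LinearMap.ext fun t => MultilinearMap.ext fun x => by simp [slot_apply]

theorem slot_pow (r : Fin a) (X : Matrix n n F) (k : ℕ) : slot r (X ^ k) = slot r X ^ k := by
  induction k with
  | zero => rw [pow_zero, pow_zero, slot_one]
  | succ k ih => rw [pow_succ, slot_mul, ih, pow_succ']

/-- The action on one variable as a linear map. -/
def slotL (r : Fin a) :
    Matrix n n F →ₗ[F] Module.End F (MultilinearMap F (fun _ : Fin a => n → F) F) where
  toFun := slot r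
  map_add' X Y := LinearMap.ext fun t => MultilinearMap.ext fun x => by
    simp [slot_apply, add_mulVec]
  map_smul' c X := LinearMap.ext fun t => MultilinearMap.ext fun x => by
    simp [slot_apply, smul_mulVec]

omit [DecidableEq n] in
theorem slot_comm {r q : Fin a} (h : r ≠ q) (X Y : Matrix n n F) :
    Commute (slot r X) (slot q Y) :=
  LinearMap.ext fun t => MultilinearMap.ext fun x => by
    simp only [Module.End.mul_apply, slot_apply, Function.update_of_ne h,
      Function.update_of_ne h.symm, Function.update_comm h]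

omit [DecidableEq n] in
theorem slot_comm_self (r q : Fin a) (X : Matrix n n F) : Commute (slot r X) (slot q X) := by
  by_cases h : r = q
  · rw [h]
  · exact slot_comm h X X

theorem slot_nil (r : Fin a) {X : Matrix n n F} (h : IsNilpotent X) : IsNilpotent (slot r X) := by
  obtain ⟨k, hk⟩ := h
  exact ⟨k, by rw [← slot_pow, hk]; exact (slotL r).map_zero⟩

/-- The action of a matrix on multilinear forms as a derivation. -/
def der (X : Matrix n n F) : Module.End F (MultilinearMap F (fun _ : Fin a => n → F) F) :=
  ∑ r, slot r X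

omit [DecidableEq n] in
theorem der_apply (X : Matrix n n F) (t : MultilinearMap F (fun _ : Fin a => n → F) F)
    (x : Fin a → n → F) : der X t x = ∑ r, t (Function.update x r (X *ᵥ x r)) := by
  simp [der, slot_apply]

omit [DecidableEq n] in
theorem der_bracket (X Y : Matrix n n F) :
    (der (X * Y - Y * X) : Module.End F (MultilinearMap F (fun _ : Fin a => n → F) F)) =
      der Y * der X - der X * der Y := by
  have h : ∀ A B : Fin a → Module.End F (MultilinearMap F (fun _ : Fin a => n → F) F),
      ∑ r, A r - ∑ r, B r = ∑ r, (A r - B r) := fun A B => (Finset.sum_sub_distrib A B).symm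
  rw [der, der, der, Finset.sum_mul_sum, Finset.sum_mul_sum, Finset.sum_comm (f := fun r q =>
    slot r X * slot q Y), h]
  refine Finset.sum_congr rfl fun r _ => ?_
  rw [h, Finset.sum_eq_single r]
  · rw [← slot_mul, ← slot_mul]
    exact map_sub (slotL (n := n) (F := F) r) (X * Y) (Y * X)
  · intro q _ hq
    rw [(slot_comm hq X Y).eq]
    exact sub_self (slot r Y * slot q X)
  · simp

variable [CharZero F]

theorem slot_exp (r : Fin a) {X : Matrix n n F} (h : IsNilpotent X) :
    IsNilpotent.exp (slot r X) = slot r (IsNilpotent.exp X) := by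
  obtain ⟨k, hk⟩ := h
  have h1 : slot r X ^ k = 0 := by rw [← slot_pow, hk]; exact (slotL r).map_zero
  rw [IsNilpotent.exp_eq_sum hk, IsNilpotent.exp_eq_sum h1]
  change _ = slotL r _
  rw [map_sum]
  refine Finset.sum_congr rfl fun i _ => ?_
  rw [map_rat_smul, ← slot_pow]
  rfl

omit [CharZero F] in
theorem sum_slot_nil {X : Matrix n n F} (h : IsNilpotent X) (s : Finset (Fin a)) :
    IsNilpotent (∑ r ∈ s, slot r X) :=
  Commute.isNilpotent_sum (fun r _ => slot_nil r h) fun r q _ _ => slot_comm_self r q X

theorem exp_sum_slot {X : Matrix n n F} (h : IsNilpotent X) (s : Finset (Fin a))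
    (t : MultilinearMap F (fun _ : Fin a => n → F) F) (x : Fin a → n → F) :
    IsNilpotent.exp (∑ r ∈ s, slot r X) t x =
      t fun q => if q ∈ s then IsNilpotent.exp X *ᵥ x q else x q := by
  induction s using Finset.induction_on generalizing x with
  | empty => simp [IsNilpotent.exp_zero]
  | insert r s hr ih =>
    rw [Finset.sum_insert hr, IsNilpotent.exp_add_of_commute
      (Commute.sum_right _ _ _ fun q _ => slot_comm_self r q X) (slot_nil r h) (sum_slot_nil h s),
      slot_exp r h, Module.End.mul_apply, slot_apply, ih]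
    refine congrArg t (funext fun q => ?_)
    by_cases hq : q = r
    · subst hq
      simp [hr]
    · simp [hq]

theorem exp_der {X : Matrix n n F} (h : IsNilpotent X)
    (t : MultilinearMap F (fun _ : Fin a => n → F) F) (x : Fin a → n → F) :
    IsNilpotent.exp (der X) t x = t fun q => IsNilpotent.exp X *ᵥ x q := by
  rw [der, exp_sum_slot h]
  simp

/-- A form is invariant under the exponential if and only if it is killed by the derivation. -/
theorem der_eq_zero_iff {X : Matrix n n F} (h : IsNilpotent X)
    (t : MultilinearMap F (fun _ : Fin a => n → F) F) :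
    der X t = 0 ↔ ∀ x, (t fun q => IsNilpotent.exp X *ᵥ x q) = t x := by
  have h0 : IsNilpotent (der X : Module.End F (MultilinearMap F (fun _ : Fin a => n → F) F)) :=
    sum_slot_nil h _
  obtain ⟨u, h1, h2⟩ := exists_unit_exp
    (A := Module.End F (MultilinearMap F (fun _ : Fin a => n → F) F)) h0
  simp only [← exp_der h, h2]
  constructor
  · intro h3 x
    rw [LinearMap.add_apply, Module.End.mul_apply, h3, map_zero, add_zero, Module.End.one_apply]
  · intro h3
    have h4 : (1 + u * der X : Module.End F _) t = t := MultilinearMap.ext h3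
    rw [LinearMap.add_apply, Module.End.one_apply, add_eq_left, Module.End.mul_apply] at h4
    exact (Module.End.isUnit_iff u).1 h1 |>.1 (h4.trans (map_zero u).symm)

end Slot

end Vale.Agent.P011Z
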